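/-!
# Row 109 (S0143, S0144): overview of the proof

* `Defs`, `VN`, `SetupP`, `SetupEP`, `SetupE`, `Gelfand`: a MASA is `ρ (C(X, ℂ))` with `X` extremally
  disconnected; `EP a y` is the paving along a locally constant `a`; `E0`/`E` its ultralimit.
* `Gns`, `Corner`, `Dich`: the state `φ ∘ E0` splits into a normal part (a central separating vector on a
  corner `e M e`, `e ∈ A`) and a part that is singular to `φ`.
* `Sing1`, `Sing2`: singular part, `2 ^ j` colours by `j` random sign vectors.
* `StdE`, `UAC`, `CondN`, `CondN2`, `Fix`: normal part, `x = n + x°` with `n` in the normaliser algebra.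
* `NrmCut`, `Atom`, `Cross`, `RF`, `Vanish1`, `Tie`, `Vanish2`, `Fock`: `x°` is free from functions of
  random labels, so it is paved by any local rule in which each colour has probability `≤ 1 / L`.
* `Mix` ... `InitFin`, `Loc`: mixed determinantal polynomials; the potential `∑ exp (roots)`; three
  quarters of the colours of a cell are good; barrier bound; locality.
* `GDefs` ... `GPave`, `Mu`, `Kernel`, `Moment`, `Normal`: the local rule on the orbit graph.
* `Normal2`, `Main43`, `Main44`: assembly.
-/
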